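import Mathlib

/-!
# P027: subsets of `ℚ` defined existentially by one polynomial of total degree at most two

If `g` has total degree at most `2`, the set of values of one coordinate on the rational zeros of
`g` either has at most two elements or has no isolated point.
-/

namespace Vale.Agent.Lib.P027

open MvPolynomial Filter Topology

variable {σ : Type}

/-- the restriction of `g` to a line is a polynomial of degree at most the total degree -/
theorem line_poly (g : MvPolynomial σ ℚ) (hg : g.totalDegree ≤ 2) (P w : σ → ℚ) :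
    ∃ p : Polynomial ℚ, p.natDegree ≤ 2 ∧
      ∀ t : ℚ, eval (fun i => P i + t * w i) g = p.eval t := by
  refine ⟨aeval (fun i => Polynomial.C (P i) + Polynomial.X * Polynomial.C (w i)) g, ?_, ?_⟩
  · have h := aeval_natDegree_le (m := 2) (n := 1) g hg
      (fun i => Polynomial.C (P i) + Polynomial.X * Polynomial.C (w i)) (fun i => by
        refine (Polynomial.natDegree_add_le _ _).trans ?_
        rw [Polynomial.natDegree_C]
        refine max_le (Nat.zero_le _) ?_
        refine (Polynomial.natDegree_mul_le).trans ?_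
        rw [Polynomial.natDegree_C]
        simp)
    simpa using h
  · intro t
    have h := map_aeval (fun i => Polynomial.C (P i) + Polynomial.X * Polynomial.C (w i))
      (Polynomial.evalRingHom t) g
    have e : (Polynomial.evalRingHom t).comp (algebraMap ℚ (Polynomial ℚ)) = RingHom.id ℚ :=
      Subsingleton.elim _ _
    rw [Polynomial.coe_evalRingHom] at h
    rw [h, e]
    have e2 : (fun i => Polynomial.eval t
        (Polynomial.C (P i) + Polynomial.X * Polynomial.C (w i))) = fun i => P i + t * w i := by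
      funext i
      simp only [Polynomial.eval_add, Polynomial.eval_C, Polynomial.eval_mul, Polynomial.eval_X]
    rw [e2]
    rfl

/-- a polynomial of degree at most two is determined by its values at `0`, `1`, `-1` -/
theorem quad_formula (p : Polynomial ℚ) (hp : p.natDegree ≤ 2) (t : ℚ) :
    p.eval t = p.eval 0 + t * ((p.eval 1 - p.eval (-1)) / 2)
      + t ^ 2 * ((p.eval 1 + p.eval (-1) - 2 * p.eval 0) / 2) := by
  have h := Polynomial.eq_quadratic_of_degree_le_two
    (p := p) (Polynomial.natDegree_le_iff_degree_le.1 hp)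
  generalize p.coeff 2 = a at h
  generalize p.coeff 1 = b at h
  generalize p.coeff 0 = c at h
  subst h
  simp
  ring

/-- if a whole line lies in the zero set and the coordinate `i₀` is not constant on it, then no
value of that coordinate is isolated -/
theorem line_in (g : MvPolynomial σ ℚ) (i₀ : σ) (P w : σ → ℚ) (hw : w i₀ ≠ 0)
    (hline : ∀ t : ℚ, eval (fun i => P i + t * w i) g = 0) (x₁ ε : ℚ) (hε : 0 < ε)
    (hiso : ∀ Q : σ → ℚ, eval Q g = 0 → |Q i₀ - x₁| < ε → Q i₀ = x₁) : False := by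
  have h := hiso _ (hline ((x₁ + ε / 2 - P i₀) / w i₀))
  have e : P i₀ + (x₁ + ε / 2 - P i₀) / w i₀ * w i₀ = x₁ + ε / 2 := by
    field_simp
    ring
  simp only [e] at h
  have h2 : |x₁ + ε / 2 - x₁| < ε := by
    have : x₁ + ε / 2 - x₁ = ε / 2 := by ring
    rw [this, abs_of_pos (by linarith)]
    linarith
  have h3 := h h2
  linarith

/-- the core statement: three distinct values, one of them isolated, are impossible -/
theorem core (g : MvPolynomial σ ℚ) (hg : g.totalDegree ≤ 2) (i₀ : σ) (P₀ P₁ P₂ : σ → ℚ)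
    (h₀ : eval P₀ g = 0) (h₁ : eval P₁ g = 0) (h₂ : eval P₂ g = 0)
    (h01 : P₀ i₀ ≠ P₁ i₀) (h02 : P₀ i₀ ≠ P₂ i₀) (h12 : P₁ i₀ ≠ P₂ i₀)
    (ε : ℚ) (hε : 0 < ε)
    (hiso : ∀ Q : σ → ℚ, eval Q g = 0 → |Q i₀ - P₁ i₀| < ε → Q i₀ = P₁ i₀) : False := by
  -- the two auxiliary polynomials in the parameter `u`
  obtain ⟨hp, -, hpe⟩ := line_poly g hg P₁ (fun i => P₂ i - P₁ i)
  obtain ⟨hm, -, hme⟩ := line_poly g hg (fun i => P₀ i - (P₁ i - P₀ i)) (fun i => -(P₂ i - P₁ i))
  set Lp : Polynomial ℚ := Polynomial.C (1 / 2) * (hp - hm) with hLp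
  set qp : Polynomial ℚ := Polynomial.C (1 / 2) * (hp + hm) with hqp
  -- the key formula
  have key : ∀ u t : ℚ, eval (fun i => P₀ i + t * ((P₁ i - P₀ i) + u * (P₂ i - P₁ i))) g
      = t * Lp.eval u + t ^ 2 * qp.eval u := by
    intro u t
    obtain ⟨p, hpd, hpev⟩ := line_poly g hg P₀ (fun i => (P₁ i - P₀ i) + u * (P₂ i - P₁ i))
    rw [hpev t, quad_formula p hpd t]
    have e0 : p.eval 0 = 0 := by
      have e : (fun i => P₀ i + 0 * ((P₁ i - P₀ i) + u * (P₂ i - P₁ i))) = P₀ := by
        funext i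
        ring
      rw [← hpev 0, e, h₀]
    have e1 : p.eval 1 = hp.eval u := by
      have e : (fun i => P₀ i + 1 * ((P₁ i - P₀ i) + u * (P₂ i - P₁ i)))
          = fun i => P₁ i + u * (P₂ i - P₁ i) := by
        funext i
        ring
      rw [← hpev 1, ← hpe u, e]
    have e2 : p.eval (-1) = hm.eval u := by
      have e : (fun i => P₀ i + (-1) * ((P₁ i - P₀ i) + u * (P₂ i - P₁ i)))
          = fun i => P₀ i - (P₁ i - P₀ i) + u * -(P₂ i - P₁ i) := by
        funext i
        ring
      rw [← hpev (-1), ← hme u, e]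
    rw [e0, e1, e2, hLp, hqp]
    simp
    ring
  set a : ℚ := P₁ i₀ - P₀ i₀ with ha
  set b : ℚ := P₂ i₀ - P₀ i₀ with hb
  have ha0 : a ≠ 0 := by
    intro h
    apply h01
    linarith
  have hb0 : b ≠ 0 := by
    intro h
    apply h02
    linarith
  have hab : b - a ≠ 0 := by
    intro h
    apply h12
    linarith
  have k0 : Lp.eval 0 + qp.eval 0 = 0 := by
    have h := key 0 1
    have e : (fun i => P₀ i + 1 * ((P₁ i - P₀ i) + 0 * (P₂ i - P₁ i))) = P₁ := by
      funext i
      ring
    rw [e, h₁] at h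
    linarith
  have k1 : Lp.eval 1 + qp.eval 1 = 0 := by
    have h := key 1 1
    have e : (fun i => P₀ i + 1 * ((P₁ i - P₀ i) + 1 * (P₂ i - P₁ i))) = P₂ := by
      funext i
      ring
    rw [e, h₂] at h
    linarith
  -- step 1
  have hq0 : qp.eval 0 ≠ 0 := by
    intro hq
    have hL : Lp.eval 0 = 0 := by linarith
    refine line_in g i₀ P₀ (fun i => (P₁ i - P₀ i) + 0 * (P₂ i - P₁ i)) ?_ ?_ (P₁ i₀) ε hε hiso
    · simpa using ha0
    · intro t
      rw [key 0 t, hL, hq]
      ring
  -- step 2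
  set R : Polynomial ℚ :=
    -(Lp * (Polynomial.C a + Polynomial.X * Polynomial.C (b - a))) - Polynomial.C a * qp with hR
  have hRe : ∀ u, R.eval u = -(Lp.eval u * (a + u * (b - a))) - a * qp.eval u := by
    intro u
    rw [hR]
    simp
  have hzero : ∀ u : ℚ, qp.eval u ≠ 0 → |R.eval u / qp.eval u| < ε → R.eval u = 0 := by
    intro u hq hlt
    have hz := key u (-(Lp.eval u) / qp.eval u)
    have hz0 : -(Lp.eval u) / qp.eval u * Lp.eval u
        + (-(Lp.eval u) / qp.eval u) ^ 2 * qp.eval u = 0 := by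
      field_simp
      ring
    rw [hz0] at hz
    have hx : P₀ i₀ + -(Lp.eval u) / qp.eval u * ((P₁ i₀ - P₀ i₀) + u * (P₂ i₀ - P₁ i₀))
        - P₁ i₀ = R.eval u / qp.eval u := by
      rw [hRe u, ha, hb]
      field_simp
      ring
    have h3 := hiso _ hz (by rw [hx]; exact hlt)
    have h4 : R.eval u / qp.eval u = 0 := by
      rw [← hx]
      linarith
    rcases div_eq_zero_iff.1 h4 with h5 | h5
    · exact h5
    · exact absurd h5 hq
  have hcont : ContinuousAt (fun u : ℚ => R.eval u / qp.eval u) 0 :=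
    (R.continuous.continuousAt).div (qp.continuous.continuousAt) hq0
  have hR0 : R.eval 0 = 0 := by
    rw [hRe 0]
    have : Lp.eval 0 = -qp.eval 0 := by linarith
    rw [this]
    ring
  have hev1 : ∀ᶠ u in 𝓝 (0 : ℚ), |R.eval u / qp.eval u| < ε := by
    have h := hcont.tendsto
    rw [hR0, zero_div] at h
    have h2 : Set.Ioo (-ε) ε ∈ 𝓝 (0 : ℚ) := Ioo_mem_nhds (by linarith) hε
    filter_upwards [h h2] with u hu
    exact abs_lt.2 hu
  have hev2 : ∀ᶠ u in 𝓝 (0 : ℚ), qp.eval u ≠ 0 :=
    (qp.continuous.continuousAt).eventually_ne hq0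
  have hev : {u : ℚ | R.IsRoot u} ∈ 𝓝 (0 : ℚ) := by
    filter_upwards [hev1, hev2] with u hu1 hu2
    exact hzero u hu2 hu1
  have hRz : R = 0 := Polynomial.eq_zero_of_infinite_isRoot R (infinite_of_mem_nhds 0 hev)
  -- step 3
  have hR1 := hRe 1
  rw [hRz, Polynomial.eval_zero] at hR1
  have hq1 : qp.eval 1 = 0 := by
    have hL : Lp.eval 1 = -qp.eval 1 := by linarith
    rw [hL] at hR1
    have : qp.eval 1 * (b - a) = 0 := by linarith
    rcases mul_eq_zero.1 this with h | h
    · exact h
    · exact absurd h hab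
  have hL1 : Lp.eval 1 = 0 := by linarith
  refine line_in g i₀ P₀ (fun i => (P₁ i - P₀ i) + 1 * (P₂ i - P₁ i)) ?_ ?_ (P₁ i₀) ε hε hiso
  · have : (P₁ i₀ - P₀ i₀) + 1 * (P₂ i₀ - P₁ i₀) = b := by
      rw [hb]
      ring
    rw [this]
    exact hb0
  · intro t
    rw [key 1 t, hL1, hq1]
    ring

end Vale.Agent.Lib.P027
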